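import Vale.Agent.Lib.P205D.Atlas

/-!
# P205: every closed Riemannian surface has a smooth isometric immersion into `ℝ⁴`, in charts

`M` is a compact Hausdorff space with a smooth atlas of charts `φ i` onto open subsets of the plane, and `g i x` is
the value at the point `x` of the chart `i` of a Riemannian metric on `M`.
-/

open scoped ContDiff

/-- Every closed surface (charts `φ i`, smooth transition maps) with a smooth Riemannian metric (coefficients `g i` in
the chart `φ i`: smooth, symmetric, positive definite, with the transformation law of a tensor) has a map `F` into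
`ℝ⁴` which is smooth and isometric in every chart. -/
theorem Vale.Agent.Results.P205.AtlasForm.result {M I : Type*}
    [TopologicalSpace M] [CompactSpace M] [T2Space M]
    (φ : I → OpenPartialHomeomorph M (ℝ × ℝ))
    (cover : ∀ p : M, ∃ i, p ∈ (φ i).source)
    (smooth_transition : ∀ i j, ContDiffOn ℝ ∞ (fun x => φ j ((φ i).symm x))
      {x | x ∈ (φ i).target ∧ (φ i).symm x ∈ (φ j).source})
    (g : I → ℝ × ℝ → ℝ × ℝ →L[ℝ] ℝ × ℝ →L[ℝ] ℝ)
    (smooth_metric : ∀ i, ContDiffOn ℝ ∞ (g i) (φ i).target)
    (symmetric : ∀ i, ∀ x ∈ (φ i).target, ∀ v w, g i x v w = g i x w v)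
    (positive : ∀ i, ∀ x ∈ (φ i).target, ∀ v, v ≠ 0 → 0 < g i x v v)
    (tensor_law : ∀ i j, ∀ x ∈ (φ i).target, (φ i).symm x ∈ (φ j).source → ∀ v w,
      g i x v w = g j (φ j ((φ i).symm x)) (fderiv ℝ (fun y => φ j ((φ i).symm y)) x v)
        (fderiv ℝ (fun y => φ j ((φ i).symm y)) x w)) :
    ∃ F : M → EuclideanSpace ℝ (Fin 4), ∀ i,
      ContDiffOn ℝ ∞ (fun x => F ((φ i).symm x)) (φ i).target ∧
      ∀ x ∈ (φ i).target, ∀ v w : ℝ × ℝ,
        inner ℝ (fderiv ℝ (fun y => F ((φ i).symm y)) x v)
          (fderiv ℝ (fun y => F ((φ i).symm y)) x w) = g i x v w :=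
  P205D.atlas_main φ cover smooth_transition g smooth_metric symmetric positive tensor_law
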