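import Vale.Agent.Lib.P205B.Main
import Vale.Agent.Lib.P205F.MT5
import Vale.Agent.Lib.P205X.XF
import Vale.Agent.Lib.P205E.EX
import Vale.Agent.Lib.P205I.Final

/-!
# P205: every closed Riemannian surface has a smooth isometric immersion into `ℝ⁴`

The surface `M` is a compact Hausdorff smooth manifold modelled on `ℝ × ℝ`; the metric is given by its coefficients in
charts (`IsRiemannian`), elementary form.
-/

open scoped Manifold ContDiff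

namespace P205R

/-- `g` is a smooth Riemannian metric on the surface `M` (a manifold modelled on `ℝ × ℝ`): a symmetric positive
definite bilinear form `g p` on every tangent space `T_p M`, whose coefficients in every smooth chart `φ`,
that is the functions `x ↦ g (φ⁻¹ x) (d(φ⁻¹)_x v, d(φ⁻¹)_x w)` for constant vectors `v`, `w`, are `C^∞`
on the domain `φ.target` of the coordinates. -/
structure IsRiemannian {M : Type} [TopologicalSpace M] [ChartedSpace (ℝ × ℝ) M]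
    (g : ∀ p : M, TangentSpace 𝓘(ℝ, ℝ × ℝ) p →L[ℝ] TangentSpace 𝓘(ℝ, ℝ × ℝ) p →L[ℝ] ℝ) :
    Prop where
  symm : ∀ p v w, g p v w = g p w v
  pos : ∀ p v, v ≠ 0 → 0 < g p v v
  smooth : ∀ φ ∈ IsManifold.maximalAtlas 𝓘(ℝ, ℝ × ℝ) ∞ M, ∀ v w : ℝ × ℝ,
    ContDiffOn ℝ ∞ (fun x : ℝ × ℝ => g (φ.symm x)
      (mfderiv 𝓘(ℝ, ℝ × ℝ) 𝓘(ℝ, ℝ × ℝ) φ.symm x v)
      (mfderiv 𝓘(ℝ, ℝ × ℝ) 𝓘(ℝ, ℝ × ℝ) φ.symm x w)) φ.target

/-- the differential of `F : M → V` at `p`, a linear map from `T_p M` to the Euclidean space `V` -/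
noncomputable def differential {M : Type} [TopologicalSpace M] [ChartedSpace (ℝ × ℝ) M]
    {V : Type} [NormedAddCommGroup V] [InnerProductSpace ℝ V] (F : M → V) (p : M) :
    TangentSpace 𝓘(ℝ, ℝ × ℝ) p →L[ℝ] V :=
  mfderiv 𝓘(ℝ, ℝ × ℝ) 𝓘(ℝ, V) F p

/-- `F : M → V` is `C^∞` and induces `g`: the pull-back of the inner product of `V` by `F` is `g` -/
def Induces {M : Type} [TopologicalSpace M] [ChartedSpace (ℝ × ℝ) M]
    {V : Type} [NormedAddCommGroup V] [InnerProductSpace ℝ V] (F : M → V)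
    (g : ∀ p : M, TangentSpace 𝓘(ℝ, ℝ × ℝ) p →L[ℝ] TangentSpace 𝓘(ℝ, ℝ × ℝ) p →L[ℝ] ℝ) : Prop :=
  ContMDiff 𝓘(ℝ, ℝ × ℝ) 𝓘(ℝ, V) ∞ F ∧
    ∀ (p : M) (v w : TangentSpace 𝓘(ℝ, ℝ × ℝ) p),
      inner ℝ (differential F p v) (differential F p w) = g p v w

section

open P205F

private theorem mf_eq {M : Type} [TopologicalSpace M] [ChartedSpace (ℝ × ℝ) M]
    {V : Type} [NormedAddCommGroup V] [NormedSpace ℝ V] {F : M → V}
    (hF : ContMDiff 𝓘(ℝ, ℝ × ℝ) 𝓘(ℝ, V) ∞ F) (p : M) :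
    (mfderiv 𝓘(ℝ, ℝ × ℝ) 𝓘(ℝ, V) F p : ℝ × ℝ → V) = dP F p := by
  have h1 : MDifferentiableAt 𝓘(ℝ, ℝ × ℝ) 𝓘(ℝ, V) F p :=
    (hF p).mdifferentiableAt (by simp)
  rw [h1.mfderiv]
  simp only [ModelWithCorners.range_eq_univ, fderivWithin_univ]
  rfl

private theorem mf_symm {M : Type} [TopologicalSpace M] [ChartedSpace (ℝ × ℝ) M]
    [IsManifold 𝓘(ℝ, ℝ × ℝ) ∞ M] {φ : OpenPartialHomeomorph M (ℝ × ℝ)}
    (hφ : φ ∈ IsManifold.maximalAtlas 𝓘(ℝ, ℝ × ℝ) ∞ M) {x : ℝ × ℝ} (hx : x ∈ φ.target) :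
    (mfderiv 𝓘(ℝ, ℝ × ℝ) 𝓘(ℝ, ℝ × ℝ) φ.symm x : ℝ × ℝ → ℝ × ℝ) = TTi φ x := by
  have h1 : MDifferentiableAt 𝓘(ℝ, ℝ × ℝ) 𝓘(ℝ, ℝ × ℝ) φ.symm x :=
    ((contMDiffOn_symm_of_mem_maximalAtlas hφ).contMDiffAt
      (φ.open_target.mem_nhds hx)).mdifferentiableAt (by simp)
  rw [h1.mfderiv]
  simp only [ModelWithCorners.range_eq_univ, fderivWithin_univ]
  rfl

private theorem isMetric_of {M : Type} [TopologicalSpace M] [ChartedSpace (ℝ × ℝ) M]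
    [IsManifold 𝓘(ℝ, ℝ × ℝ) ∞ M]
    {g : ∀ p : M, TangentSpace 𝓘(ℝ, ℝ × ℝ) p →L[ℝ] TangentSpace 𝓘(ℝ, ℝ × ℝ) p →L[ℝ] ℝ}
    (hg : IsRiemannian g) : P205F.IsMetric (M := M) (fun p => (g p : P205F.Bil)) := by
  refine ⟨fun φ hφ => ?_, fun p => ⟨hg.symm p, hg.pos p⟩⟩
  rw [contDiffOn_clm_apply]
  intro v
  rw [contDiffOn_clm_apply]
  intro w
  refine (hg.smooth φ hφ v w).congr fun x hx => ?_
  have h1 := mf_symm hφ hx
  change (g (φ.symm x) : P205F.Bil) (TTi φ x v) (TTi φ x w) = _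
  rw [← h1]

end

end P205R

open P205R

theorem Vale.Agent.Results.P205.ChartMetric.result {M : Type} [TopologicalSpace M]
    [CompactSpace M] [T2Space M] [ChartedSpace (ℝ × ℝ) M] [IsManifold 𝓘(ℝ, ℝ × ℝ) ∞ M]
    {g : ∀ p : M, TangentSpace 𝓘(ℝ, ℝ × ℝ) p →L[ℝ] TangentSpace 𝓘(ℝ, ℝ × ℝ) p →L[ℝ] ℝ}
    (hg : IsRiemannian g) :
    ∃ F : M → EuclideanSpace ℝ (Fin 4), Induces F g := by
  obtain ⟨ι, hι, hinj⟩ := P205F.exists_immersion (M := M)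
  obtain ⟨F, hF, hFg⟩ := P205F.main_E2 (P205F.thmT (M := M))
    (P205F.thmES P205F.thmT P205F.EE.esaStmt) ι hι hinj (isMetric_of hg)
  refine ⟨F, hF, fun p v w => ?_⟩
  have h1 : ∀ u, differential F p u = P205F.dP F p u := fun u => congrFun (mf_eq hF p) u
  have h2 : P205F.metr F p v w = g p v w :=
    congrArg (fun B : P205F.Bil => B v w) (hFg p)
  rw [h1, h1]
  exact h2
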