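import Vale.Agent.Lib.P205W.Stmt
import Vale.Agent.Lib.P205B.Main
import Vale.Agent.Lib.P205F.MT5
import Vale.Agent.Lib.P205X.XF
import Vale.Agent.Lib.P205E.EX
import Vale.Agent.Lib.P205I.Final

/-!
# P205: every closed Riemannian surface has a smooth isometric immersion into `ℝ⁴`

`M` is any compact Hausdorff smooth surface without boundary (orientable or not, connected or not), `g` any smooth
Riemannian metric on `M`.  Then there is a smooth map `F : M → ℝ⁴` with `⟪dF_p v, dF_p w⟫ = g_p (v, w)`.

Proof: `M` immerses in `ℝ³` (`exists_immersion_Eu2`: generic maps and cancellation of cross-caps); base map with a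
metric of the form `g - ∑ aᵢ² dφᵢ²`, the `aᵢ` flat at their zero sets (`base_pack`, uses Theorem T); exact stages
(Theorem ES) add the remaining terms.
-/

open scoped Manifold ContDiff
open P205W

theorem Vale.Agent.Results.P205.ClosedSurfaces.result {M : Type} [TopologicalSpace M]
    [ChartedSpace (EuclideanSpace ℝ (Fin 2)) M] [IsManifold (𝓡 2) ∞ M] [CompactSpace M]
    [T2Space M] (g : SmoothMetric (EuclideanSpace ℝ (Fin 2)) M) :
    ∃ F : M → EuclideanSpace ℝ (Fin 4), IsSmoothIsometric g F := by
  obtain ⟨ι, hι, hinj⟩ := P205F.exists_immersion_Eu2 M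
  exact P205F.main_Eu2 (fun _ => P205F.thmT) (fun _ => P205F.thmES P205F.thmT P205F.EE.esaStmt)
    ι hι hinj g
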