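import Vale.Agent.Results.P205.ClosedSurfaces

/-!
# P205: every closed smooth Riemannian surface has a smooth isometric immersion into `ℝ⁴`,
stated with Mathlib's Riemannian manifolds

In Mathlib a smooth Riemannian manifold is a manifold together with the instances `RiemannianBundle`
(an inner product on every tangent space) and `IsContMDiffRiemannianBundle` (the inner product is a
smooth function of the point). The structure below only bundles them.
-/

open Bundle
open scoped Manifold ContDiff

namespace Vale.Agent.Results.P205.RiemannianSurface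

/-- A closed smooth Riemannian manifold `(M, g)` modelled on the vector space `E`: a compact Hausdorff
smooth manifold without boundary, orientable or not, connected or not, with a smooth Riemannian
metric. -/
structure ClosedRiemannianManifold (E : Type) [NormedAddCommGroup E] [NormedSpace ℝ E] where
  /-- the points of `M` -/
  Point : Type
  /-- the topology of `M` -/
  [topology : TopologicalSpace Point]
  /-- `M` is Hausdorff -/
  [hausdorff : T2Space Point]
  /-- `M` is compact -/
  [compact : CompactSpace Point]
  /-- charts with values in open subsets of `E` (no boundary) -/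
  [charts : ChartedSpace E Point]
  /-- the changes of charts are `C^∞` -/
  [smooth : IsManifold 𝓘(ℝ, E) ∞ Point]
  /-- the metric: an inner product `g_p` on every tangent space `T_p M` -/
  [metric : RiemannianBundle fun p : Point => TangentSpace 𝓘(ℝ, E) p]
  /-- `g_p` is a `C^∞` function of `p` -/
  [smooth_metric : IsContMDiffRiemannianBundle 𝓘(ℝ, E) ∞ E
    fun p : Point => TangentSpace 𝓘(ℝ, E) p]

attribute [instance] ClosedRiemannianManifold.topology ClosedRiemannianManifold.hausdorff
  ClosedRiemannianManifold.compact ClosedRiemannianManifold.charts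
  ClosedRiemannianManifold.smooth ClosedRiemannianManifold.metric
  ClosedRiemannianManifold.smooth_metric

variable {E : Type} [NormedAddCommGroup E] [NormedSpace ℝ E]
variable {V : Type} [NormedAddCommGroup V] [InnerProductSpace ℝ V]

/-- `F : M → V` is a smooth isometric immersion of `(M, g)` into the Euclidean space `V`: it is `C^∞`
and `⟪dF_p v, dF_p w⟫ = g_p (v, w)` for all `p` and all tangent vectors `v`, `w` at `p`. -/
def IsIsometricImmersion (M : ClosedRiemannianManifold E) (F : M.Point → V) : Prop :=
  ContMDiff 𝓘(ℝ, E) 𝓘(ℝ, V) ∞ F ∧
    ∀ (p : M.Point) (v w : TangentSpace 𝓘(ℝ, E) p),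
      inner ℝ (mfderiv 𝓘(ℝ, E) 𝓘(ℝ, V) F p v) (mfderiv 𝓘(ℝ, E) 𝓘(ℝ, V) F p w) = inner ℝ v w

/-- **Q1, affirmative.** Every closed smooth Riemannian surface has a `C^∞` isometric immersion into
Euclidean `ℝ⁴`. -/
theorem result (M : ClosedRiemannianManifold (EuclideanSpace ℝ (Fin 2))) :
    ∃ F : M.Point → EuclideanSpace ℝ (Fin 4), IsIsometricImmersion M F := by
  obtain ⟨g, hg, h⟩ := IsContMDiffRiemannianBundle.exists_contMDiff (IB := 𝓡 2) (n := ∞)
    (F := EuclideanSpace ℝ (Fin 2)) (E := fun p : M.Point => TangentSpace (𝓡 2) p)
  have hb : ∀ p : M.Point,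
      Bornology.IsVonNBounded ℝ {v : TangentSpace (𝓡 2) p | g p v v < 1} := by
    intro p
    have h1 := (RiemannianBundle.g (E := fun p : M.Point => TangentSpace (𝓡 2) p)).isVonNBounded p
    have h2 : {v : TangentSpace (𝓡 2) p | g p v v < 1} =
        {v : TangentSpace (𝓡 2) p |
          (RiemannianBundle.g (E := fun p : M.Point => TangentSpace (𝓡 2) p)).inner p v v < 1} := by
      ext v
      show g p v v < 1 ↔ inner ℝ v v < (1 : ℝ)
      rw [h p v v]
    rw [h2]
    exact h1
  let G : P205W.SmoothMetric (EuclideanSpace ℝ (Fin 2)) M.Point :=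
    { inner := g
      symm := fun p v w => by
        rw [← h p v w, ← h p w v]
        exact real_inner_comm _ _
      pos := fun p v hv => by
        rw [← h p v v]
        exact real_inner_self_pos.2 hv
      isVonNBounded := hb
      contMDiff := hg }
  obtain ⟨F, hF, hi⟩ := Vale.Agent.Results.P205.ClosedSurfaces.result G
  refine ⟨F, hF, fun p v w => ?_⟩
  rw [h p v w]
  exact hi p v w

end Vale.Agent.Results.P205.RiemannianSurface
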